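import Crest.Agent.X261.Obs.B
import Crest.Agent.X261.Cov.P

/-!
# X261 / OBS (helper42), part C: the obstacle along the diagonal of `N = (M × M) / G`

* `eqs_Dg`, `exists_obst_N` : the instance of parts A, B on `Cov.P.Nq D`, `Cov.P.Dg D`;
* `obs` : the obstacles parametrised by their depth `s`, read in the charts of `M`.
-/

set_option autoImplicit false
set_option linter.unusedSectionVars false

open Set Filter Topology Metric

namespace Crest.Agent.X261.Obs

open Crest.Agent.R275.Geo Crest.Agent.R275.Prod363 Crest.Agent.R273.UCov_914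
open Crest.Agent.R281.Kp_487 (KP)
open Crest.Agent.X261.BT Crest.Agent.X261.Cov.P

noncomputable section

variable {n : ℕ} {X : Type} [TopologicalSpace X] {A : Atl n X} {G : Type} [Group G]
  (D : MonD A G)

theorem fix_one : Fix (prodD D D) (toBi (1 : G)) := fun i j x _ _ => by
  change toBi (D.c i j x * 1 * (D.c i j x)⁻¹) = toBi 1
  rw [mul_one, mul_inv_cancel]

/-- the sheets of `N` along the diagonal -/
abbrev UN (i : A.ι) : Set (Nq D) := Ud (prodD D D) (toBi (1 : G)) i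

/-- the equations of the diagonal of `N` -/
abbrev FN (i : A.ι) : Nq D → Cn n := Fd (prodD D D) i

theorem FN_q (i : A.ι) (x : D.cov G × D.cov G) :
    FN D i (q D x) = A.e i (D.pr x.1) - A.e i (D.pr x.2) := rfl

theorem q_mem_UN {i : A.ι × G} {e e' : D.cov G} (he : e ∈ ((D.atl G).e i).source)
    (he' : e' ∈ ((D.atl G).e i).source) : q D (e, e') ∈ UN D i.1 := by
  have h := q_mem D (p := i) (r := i) (x := (e, e')) he he'
  rw [mul_inv_cancel] at h
  exact h

theorem q_diag (e : D.cov G) : q D (e, e) = dg (prodD D D) (toBi (1 : G)) (D.pr e) := by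
  obtain ⟨i, hi⟩ := A.cover (D.pr e)
  rw [(fix_one D).dg_eq hi]
  exact ((prodD D D).pt_of_mem (q_mem_UN D (i := (i, D.co i e)) ⟨hi, rfl⟩ ⟨hi, rfl⟩)).symm

theorem range_dg : range (dg (prodD D D) (toBi (1 : G))) = Dg D := by
  refine Subset.antisymm ?_ ?_
  · rintro _ ⟨x, rfl⟩
    obtain ⟨i, -⟩ := A.cover x
    exact ⟨D.pt i 1 x, q_diag D _⟩
  · rintro _ ⟨e, rfl⟩
    exact ⟨D.pr e, (q_diag D e).symm⟩

theorem eqs_Dg : Eqs (aN D) (Dg D) (UN D) (FN D) := range_dg D ▸ (fix_one D).eqs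

theorem exists_obst_N [CompactSpace X] [T2Space X] {H : KP A} (hH : H.Pos) :
    ∃ (C : ℝ) (O L : Set (Nq D)), 0 ≤ C ∧ ∀ c : ℝ, 0 ≤ c → ∃ f : ℝ → Nq D → ℝ,
      Obst (sc (c * C) (kN D H)) (Dg D) (UN D) (FN D) c O L f :=
  range_dg D ▸ (fix_one D).exists_obst (pos_N D hH)

/-- **OBS**, parametrised by the depth and read in the charts of `M` -/
theorem obs [CompactSpace X] [T2Space X] {H : KP A} (hH : H.Pos) (c : ℝ) (hc : 0 ≤ c) :
    ∃ (a : ℝ) (O K : Set (Nq D)) (f : ℝ → Nq D → ℝ), 1 ≤ a ∧ IsCompact K ∧ K ⊆ O ∧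
      (∀ s, QP (sc a (kN D H)) O (f s)) ∧
      (∀ s, ∀ x ∈ O, x ∉ K → f s x = f 0 x ∧ 0 ≤ f s x) ∧
      (∀ x, Antitone fun s => f s x) ∧ (∀ s, 0 ≤ s → ∀ x, -s ≤ f s x) ∧
      IsCompact (closure O) ∧ Dg D ⊆ interior K ∧
      ∀ (e : D.cov G) (i : A.ι × G), e ∈ ((D.atl G).e i).source →
        ∃ C : ℝ, ∃ V ∈ 𝓝 ((D.atl G).e i e), ∀ s, 0 ≤ s → ∀ z ∈ V, ∀ z' ∈ V, z ≠ z' →
          q D (((D.atl G).e i).symm z, ((D.atl G).e i).symm z') ∈ O ∧
          f s (q D (((D.atl G).e i).symm z, ((D.atl G).e i).symm z')) ≤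
            max (c * Real.log ‖z - z'‖ + C) (-s) := by
  obtain ⟨C, O, L, hC, h⟩ := exists_obst_N D hH
  have hc' : 0 < c + 1 := by linarith
  obtain ⟨f, h⟩ := h (c + 1) hc'.le
  have h0 : ∀ s : ℝ, 0 ≤ max s 0 / (c + 1) := fun s => div_nonneg (le_max_right _ _) hc'.le
  have h1 : ∀ s : ℝ, 0 ≤ s → (c + 1) * (max s 0 / (c + 1)) = s := fun s hs => by
    rw [max_eq_left hs, mul_div_cancel₀ _ hc'.ne']
  refine ⟨max ((c + 1) * C) 1, O, L, fun s => f (max s 0 / (c + 1)), le_max_right _ _, h.Lc,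
    h.LO, fun s => QP.sc_le (pos_semi (pos_N D hH)) (h.qp _) (le_max_left _ _),
    fun s x hx hL => h.off _ _ (h0 s) (h0 0) x hx hL, fun x s s' hs => h.anti x
      (div_le_div_of_nonneg_right (max_le_max hs le_rfl) hc'.le), fun s hs x => ?_, h.cpt, h.sub,
    fun e i he => ?_⟩
  · have h2 := h.ge (max s 0 / (c + 1)) x
    rwa [h1 s hs] at h2
  · have hO : q D (e, e) ∈ O := h.LO (interior_subset (h.sub ⟨e, rfl⟩))
    obtain ⟨b, hb⟩ := h.sharp i.1 _ hO (q_mem_UN D he he)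
    have h2 : ContinuousAt ((D.atl G).e i).symm ((D.atl G).e i e) :=
      ((D.atl G).e i).continuousAt_symm (((D.atl G).e i).map_source he)
    have h3 : Tendsto (fun p : Cn n × Cn n =>
        q D (((D.atl G).e i).symm p.1, ((D.atl G).e i).symm p.2))
        (𝓝 ((D.atl G).e i e) ×ˢ 𝓝 ((D.atl G).e i e)) (𝓝 (q D (e, e))) := by
      refine ((continuous_q D).tendsto (e, e)).comp ?_
      have h4 := h2.tendsto
      rw [((D.atl G).e i).left_inv he] at h4
      exact (h4.comp tendsto_fst).prodMk_nhds (h4.comp tendsto_snd)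
    obtain ⟨V, hV, hV'⟩ := (eventually_prod_self_iff
      (r := fun z z' => q D (((D.atl G).e i).symm z, ((D.atl G).e i).symm z') ∈ O ∧
        ∀ s r : ℝ, 0 < r → ‖FN D i.1 (q D (((D.atl G).e i).symm z, ((D.atl G).e i).symm z'))‖ ≤ r →
          f s (q D (((D.atl G).e i).symm z, ((D.atl G).e i).symm z')) ≤
            max ((c + 1) * Real.log r + b) (-((c + 1) * s)))).1
      (h3.eventually ((h.opn.eventually_mem hO).and hb))
    refine ⟨b, V ∩ ((D.atl G).e i).target ∩ ball ((D.atl G).e i e) (1 / 2),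
      inter_mem (inter_mem hV (((D.atl G).e i).open_target.mem_nhds
        (((D.atl G).e i).map_source he))) (ball_mem_nhds _ one_half_pos),
      fun s hs z hz z' hz' hne => ⟨(hV' z hz.1.1 z' hz'.1.1).1, ?_⟩⟩
    have h5 : 0 < ‖z - z'‖ := norm_pos_iff.2 (sub_ne_zero.2 hne)
    have h6 : ‖z - z'‖ ≤ 1 := by
      rw [← dist_eq_norm]
      linarith [dist_triangle_right z z' ((D.atl G).e i e), mem_ball.1 hz.2, mem_ball.1 hz'.2]
    have h7 : FN D i.1 (q D (((D.atl G).e i).symm z, ((D.atl G).e i).symm z')) = z - z' := by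
      rw [FN_q]
      exact congrArg₂ (· - ·) ((A.e i.1).right_inv hz.1.2) ((A.e i.1).right_inv hz'.1.2)
    have h8 := (hV' z hz.1.1 z' hz'.1.1).2 (max s 0 / (c + 1)) _ h5 (by rw [h7])
    rw [h1 s hs] at h8
    refine h8.trans (max_le_max ?_ le_rfl)
    have := Real.log_nonpos h5.le h6
    linarith

end

end Crest.Agent.X261.Obs
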