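import Crest.Agent.X261.BT.Part

/-!
# X261 / OBS (helper42), part A: logarithmic poles along a compact set, by max gluing

* `pshL_log_norm`, `qp_log_norm` : `log ‖F‖` is psh where the holomorphic map `F` does not vanish;
* `Eqs B Δ U F`   : local holomorphic equations of `Δ` with comparable norms;
* `Rho`, `Eqs.exists_rho` : a "distance" `ρ` to `Δ` with `log ρ` quasi-psh off `Δ`;
* `Obst`, `Eqs.exists_obst` : the hard obstacles `f s = c * max (log (ρ / δ)) (-s)`.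
-/

set_option autoImplicit false
set_option linter.unusedSectionVars false

open Set Filter Topology Metric

namespace Crest.Agent.X261.Obs

open Crest.Agent.R275.Geo
open Crest.Agent.R281.Rich_710 (PshL dav)
open Crest.Agent.R281.Kp_487 (KP pot)
open Crest.Agent.X261.BT

noncomputable section

section psh

variable {E W : Type*} [NormedAddCommGroup E] [NormedSpace ℂ E] [NormedSpace ℝ E]
  [IsScalarTower ℝ ℂ E] [FiniteDimensional ℝ E] [NormedAddCommGroup W] [NormedSpace ℂ W] {D : Set E}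

theorem pshL_re {h : E → ℂ} (hD : IsOpen D) (hh : DifferentiableOn ℂ h D) :
    PshL D fun z => (h z).re :=
  PL.of_discs hD fun x v hi => by
    have hd : ∀ w : ℂ, ‖w‖ ≤ 1 → DifferentiableAt ℂ (fun w : ℂ => h (x + w • v)) w := fun w hw =>
      (hh.differentiableAt (hD.mem_nhds (hi w hw))).comp w (by fun_prop)
    have hc : ContinuousOn (fun w : ℂ => h (x + w • v)) (closedBall 0 |1|) := fun w hw =>
      (hd w (by simpa using hw)).continuousAt.continuousWithinAt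
    have h1 := circleAverage_of_differentiable_on_off_countable (s := ∅) countable_empty hc
      fun w hw => hd w (by simpa using (mem_ball_zero_iff.1 hw.1).le)
    have h2 := Complex.reCLM.circleAverage_comp_comm
      ((hc.mono sphere_subset_closedBall).circleIntegrable')
    rw [h1] at h2
    simp only [zero_smul, add_zero, Complex.reCLM_apply] at h2
    exact h2.ge

theorem pshL_log_norm {F : E → W} (hD : IsOpen D) (hF : DifferentiableOn ℂ F D)
    (h0 : ∀ z ∈ D, F z ≠ 0) : PshL D fun z => Real.log ‖F z‖ := by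
  refine PL.of_local fun z hz => ?_
  have hz0 : 0 < ‖F z‖ := norm_pos_iff.2 (h0 z hz)
  set O : Set E := D ∩ F ⁻¹' ball (F z) (‖F z‖ / 4) with hO
  have ho : IsOpen O := hF.continuousOn.isOpen_inter_preimage hD isOpen_ball
  refine ⟨O, ⟨hz, mem_ball_self (by positivity)⟩, PL.of_sup ho
    ((hF.continuousOn.mono inter_subset_left).norm.log fun y hy => norm_ne_zero_iff.2 (h0 y hy.1))
    fun x hx ε hε => ?_⟩
  obtain ⟨l, hl, hlx⟩ := exists_dual_vector'' ℂ (F x)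
  have hle : ∀ y : W, ‖l y‖ ≤ ‖y‖ := fun y =>
    (l.le_opNorm y).trans (mul_le_of_le_one_left (norm_nonneg _) hl)
  have hre : ∀ y ∈ O, 0 < (l (F y)).re := fun y hy => by
    have h1 : ‖F x - F z‖ < ‖F z‖ / 4 := mem_ball_iff_norm.1 hx.2
    have h2 : ‖F y - F z‖ < ‖F z‖ / 4 := mem_ball_iff_norm.1 hy.2
    have h3 : l (F y) = l (F x) + l (F y - F x) := by rw [map_sub]; ring
    have h4 := (abs_le.1 ((Complex.abs_re_le_norm _).trans (hle (F y - F x)))).1
    have h5 : ‖F y - F x‖ ≤ ‖F y - F z‖ + ‖F x - F z‖ := by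
      rw [show F y - F x = (F y - F z) - (F x - F z) by abel]
      exact norm_sub_le _ _
    have h6 : ‖F z‖ ≤ ‖F x‖ + ‖F x - F z‖ := by
      simpa using norm_sub_le (F x) (F x - F z)
    rw [h3, hlx, Complex.add_re]
    simp only [Complex.coe_algebraMap, Complex.ofReal_re]
    linarith
  have hs : ∀ y ∈ O, l (F y) ∈ Complex.slitPlane := fun y hy => Or.inl (hre y hy)
  have hd : DifferentiableOn ℂ (fun y => Complex.log (l (F y))) O :=
    (l.differentiable.comp_differentiableOn (hF.mono inter_subset_left)).clog hs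
  refine ⟨fun y => (Complex.log (l (F y))).re,
    Complex.continuous_re.comp_continuousOn hd.continuousOn, pshL_re ho hd, fun y hy => ?_, ?_⟩
  · simp only [Complex.log_re]
    have := Real.log_le_log (norm_pos_iff.2 (Complex.slitPlane_ne_zero (hs y hy))) (hle (F y))
    linarith
  · simp only [Complex.log_re, hlx, Complex.coe_algebraMap, Complex.norm_real, norm_norm]
    linarith

end psh

variable {m : ℕ} {N : Type} [TopologicalSpace N] {B : Atl m N} {H : KP B}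
variable {W : Type*} [NormedAddCommGroup W] [NormedSpace ℂ W]

/-- `F : N → W` is holomorphic on `U` -/
def HolW (B : Atl m N) (U : Set N) (F : N → W) : Prop :=
  ∀ i, DifferentiableOn ℂ (fun z => F ((B.e i).symm z)) (chU B U i)

theorem HolW.mono {U U' : Set N} {F : N → W} (h : HolW B U F) (hU : U' ⊆ U) : HolW B U' F :=
  fun i => (h i).mono (chU_mono hU i)

theorem HolW.continuousAt {U : Set N} {F : N → W} (h : HolW B U F) (hU : IsOpen U) {x : N}
    (hx : x ∈ U) : ContinuousAt F x := by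
  obtain ⟨i, hi⟩ := B.cover x
  have h1 := ((h i).continuousOn.continuousAt
    ((isOpen_chU hU i).mem_nhds (mem_chU hi hx))).comp ((B.e i).continuousAt hi)
  refine h1.congr ?_
  filter_upwards [(B.e i).open_source.mem_nhds hi] with y hy
  simp only [Function.comp, (B.e i).left_inv hy]

theorem qp_log_norm {U : Set N} {F : N → W} (hU : IsOpen U) (h : HolW B U F)
    (h0 : ∀ x ∈ U, F x ≠ 0) : QP (zr B) U fun x => Real.log ‖F x‖ :=
  ⟨hU, fun x hx => ((h.continuousAt hU hx).norm.log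
      (norm_ne_zero_iff.2 (h0 x hx))).continuousWithinAt,
    fun i => PL.congr (isOpen_chU hU i)
      (pshL_log_norm (isOpen_chU hU i) (h i) fun z hz => h0 _ hz.2)
      fun z _ => by rw [pot_apply, wt_zr, zero_add]⟩

theorem qp_sup' {ι : Type*} {U : Set N} {a : ι → N → ℝ} {s : Finset ι} (hs : s.Nonempty)
    (h : ∀ j ∈ s, QP H U (a j)) : QP H U fun x => s.sup' hs fun j => a j x := by
  induction hs using Finset.Nonempty.cons_induction with
  | singleton j => simpa using h j (by simp)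
  | cons j s hj hs ih =>
    simp only [Finset.sup'_cons hs]
    exact (h j (by simp)).max (ih fun k hk => h k (by simp [hk]))

/-- local bounds give a uniform bound near a compact set -/
theorem exists_unif {K : Set N} (hK : IsCompact K) {a b : N → ℝ} (hb : ∀ y, 0 ≤ b y)
    (h : ∀ x ∈ K, ∃ C : ℝ, ∀ᶠ y in 𝓝 x, a y ≤ C * b y) :
    ∃ C : ℝ, 1 ≤ C ∧ ∀ᶠ y in 𝓝ˢ K, a y ≤ C * b y := by
  refine hK.induction_on (p := fun K => ∃ C : ℝ, 1 ≤ C ∧ ∀ᶠ y in 𝓝ˢ K, a y ≤ C * b y)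
    ⟨1, le_rfl, by simp⟩ (fun s t hst ⟨C, h1, h2⟩ => ⟨C, h1, h2.filter_mono (nhdsSet_mono hst)⟩)
    (fun s t ⟨C, h1, h2⟩ ⟨C', h3, h4⟩ => ⟨max C C', le_max_of_le_left h1, ?_⟩) fun x hx => ?_
  · rw [nhdsSet_union, eventually_sup]
    exact ⟨h2.mono fun y hy => hy.trans (mul_le_mul_of_nonneg_right (le_max_left _ _) (hb y)),
      h4.mono fun y hy => hy.trans (mul_le_mul_of_nonneg_right (le_max_right _ _) (hb y))⟩
  · obtain ⟨C, hC⟩ := h x hx
    obtain ⟨V, h1, h2, h3⟩ := eventually_nhds_iff.1 hC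
    refine ⟨V, mem_nhdsWithin_of_mem_nhds (h2.mem_nhds h3), max C 1, le_max_right _ _, ?_⟩
    filter_upwards [h2.mem_nhdsSet_self] with y hy
    exact (h1 y hy).trans (mul_le_mul_of_nonneg_right (le_max_left _ _) (hb y))

/-- local holomorphic equations of `Δ` with comparable norms -/
structure Eqs (B : Atl m N) (Δ : Set N) {ι : Type*} (U : ι → Set N) (F : ι → N → W) : Prop where
  opn : ∀ j, IsOpen (U j)
  cov : ∀ x ∈ Δ, ∃ j, x ∈ U j
  hol : ∀ j, HolW B (U j) (F j)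
  zero : ∀ j, ∀ x ∈ U j, F j x = 0 ↔ x ∈ Δ
  cmp : ∀ j k, ∀ x ∈ Δ, x ∈ U j → x ∈ U k → ∃ C : ℝ, ∀ᶠ y in 𝓝 x, ‖F j y‖ ≤ C * ‖F k y‖

/-- a continuous function comparable to the norms of the equations, whose logarithm is
quasi-psh off `Δ` -/
structure Rho (H : KP B) (Δ : Set N) {ι : Type*} (U : ι → Set N) (F : ι → N → W) (O : Set N)
    (ρ : N → ℝ) : Prop where
  opn : IsOpen O
  sub : Δ ⊆ O
  cont : ContinuousOn ρ O
  nn : ∀ x, 0 ≤ ρ x
  zero : ∀ x ∈ O, ρ x = 0 ↔ x ∈ Δ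
  qp : QP H (O \ Δ) fun x => Real.log (ρ x)
  up : ∀ j, ∀ x ∈ O, x ∈ U j → ∃ b : ℝ, 1 ≤ b ∧ ∀ᶠ y in 𝓝 x, ρ y ≤ b * ‖F j y‖
  low : ∀ j, ∀ x ∈ O, x ∈ U j → ∃ b : ℝ, 1 ≤ b ∧ ∀ᶠ y in 𝓝 x, ‖F j y‖ ≤ b * ρ y

variable {ι : Type*} {Δ : Set N} {U : ι → Set N} {F : ι → N → W}

theorem Eqs.cmp' (h : Eqs B Δ U F) (j k : ι) {x : N} (hj : x ∈ U j) (hk : x ∈ U k) :
    ∃ C : ℝ, 1 ≤ C ∧ ∀ᶠ y in 𝓝 x, ‖F j y‖ ≤ C * ‖F k y‖ := by
  suffices h1 : ∃ C : ℝ, ∀ᶠ y in 𝓝 x, ‖F j y‖ ≤ C * ‖F k y‖ by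
    obtain ⟨C, hC⟩ := h1
    exact ⟨max C 1, le_max_right _ _, hC.mono fun y hy =>
      hy.trans (mul_le_mul_of_nonneg_right (le_max_left _ _) (norm_nonneg _))⟩
  by_cases hx : x ∈ Δ
  · exact h.cmp j k x hx hj hk
  · have h0 : 0 < ‖F k x‖ := norm_pos_iff.2 fun h1 => hx ((h.zero k x hk).1 h1)
    have c1 := ((h.hol j).continuousAt (h.opn j) hj).norm
    have c2 := ((h.hol k).continuousAt (h.opn k) hk).norm
    have h1 : ‖F j x‖ < (‖F j x‖ + 1) / ‖F k x‖ * ‖F k x‖ := by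
      rw [div_mul_cancel₀ _ h0.ne']; linarith
    exact ⟨_, (c1.eventually_lt (continuousAt_const.mul c2) h1).mono fun _ => le_of_lt⟩

variable [T2Space N]

theorem Eqs.exists_rho (h : Eqs B Δ U F) (hH : H.Pos) (hΔ : IsCompact Δ) :
    ∃ (C : ℝ) (O : Set N) (ρ : N → ℝ), 0 ≤ C ∧ IsCompact (closure O) ∧
      Rho (sc C H) Δ U F O ρ := by
  classical
  choose j hj using fun p : Δ => h.cov p p.2
  choose θ hs ht h1 h01 using fun p : Δ =>
    exists_cutM B isCompact_singleton (h.opn (j p)) (singleton_subset_iff.2 (hj p))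
  set V : Δ → Set N := fun p => interior {y | θ p y = 1} with hV
  have hpV : ∀ p : Δ, (p : N) ∈ V p := fun p =>
    mem_interior_iff_mem_nhds.2 ((h1 p).filter_mono (nhds_le_nhdsSet (mem_singleton _)))
  have hVK : ∀ p, V p ⊆ tsupport (θ p) := fun p y hy => subset_tsupport _ (by
    have h2 : θ p y = 1 := interior_subset (s := {y | θ p y = 1}) hy
    rw [Function.mem_support, h2]; exact one_ne_zero)
  obtain ⟨t, htc⟩ := hΔ.elim_finite_subcover V (fun _ => isOpen_interior)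
    fun x hx => mem_iUnion.2 ⟨⟨x, hx⟩, hpV _⟩
  choose Cc hC1 hCc using fun p q : Δ => exists_unif ((ht p).cpt.inter (ht q).cpt)
    (a := fun y => ‖F (j p) y‖) (b := fun y => ‖F (j q) y‖) (fun _ => norm_nonneg _)
    fun x hx => (h.cmp' (j p) (j q) ((ht p).sub hx.1) ((ht q).sub hx.2)).imp fun _ h2 => h2.2
  choose Cq hCq0 hCq using fun p : Δ => exists_qp_cut hH (hs p) (ht p).cpt
  set Λ : ℝ := ∑ p ∈ t, ∑ q ∈ t, Real.log (Cc p q) with hΛ
  have hl0 : ∀ p q, 0 ≤ Real.log (Cc p q) := fun p q => Real.log_nonneg (hC1 p q)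
  have hΛ0 : 0 ≤ Λ := Finset.sum_nonneg fun p _ => Finset.sum_nonneg fun q _ => hl0 p q
  have hΛle : ∀ p ∈ t, ∀ q ∈ t, Cc p q * Real.exp (Λ * (0 - 1)) ≤ 1 := fun p hp q hq => by
    have h2 : Real.log (Cc p q) ≤ Λ :=
      (Finset.single_le_sum (f := fun q => Real.log (Cc p q)) (fun q _ => hl0 p q) hq).trans
        (Finset.single_le_sum (f := fun p => ∑ q ∈ t, Real.log (Cc p q))
          (fun p _ => Finset.sum_nonneg fun q _ => hl0 p q) hp)
    rw [← Real.exp_log (one_pos.trans_le (hC1 p q)), ← Real.exp_add, Real.exp_le_one_iff]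
    linarith
  set r : Δ → N → ℝ := fun p y => ‖F (j p) y‖ * Real.exp (Λ * (θ p y - 1)) with hr
  have hr0 : ∀ p y, 0 ≤ r p y := fun p y => by positivity
  have hr1 : ∀ p y, r p y ≤ ‖F (j p) y‖ := fun p y =>
    mul_le_of_le_one_right (norm_nonneg _) (Real.exp_le_one_iff.2
      (mul_nonpos_of_nonneg_of_nonpos hΛ0 (sub_nonpos.2 (h01 p y).2)))
  have hrV : ∀ p, ∀ y ∈ V p, r p y = ‖F (j p) y‖ := fun p y hy => by
    have h2 : θ p y = 1 := interior_subset (s := {y | θ p y = 1}) hy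
    simp [hr, h2]
  set ρ : N → ℝ := fun y => sSup ((fun p => r p y) '' {p | p ∈ t ∧ y ∈ tsupport (θ p)}) with hρ
  have hfin : ∀ y, ((fun p => r p y) '' {p | p ∈ t ∧ y ∈ tsupport (θ p)}).Finite := fun y =>
    (t.finite_toSet.subset fun p hp => hp.1).image _
  have hle : ∀ p ∈ t, ∀ y ∈ tsupport (θ p), r p y ≤ ρ y := fun p hp y hy =>
    le_csSup (hfin y).bddAbove ⟨p, ⟨hp, hy⟩, rfl⟩
  set O : Set N := ⋃ p ∈ t, V p with hO
  have ho : IsOpen O := isOpen_biUnion fun _ _ => isOpen_interior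
  -- the local form
  have key : ∀ x ∈ O, ∃ (k : Δ) (J : Finset Δ) (hk : k ∈ J), x ∈ V k ∧ J ⊆ t ∧
      (∀ p ∈ J, x ∈ U (j p)) ∧ ∀ᶠ y in 𝓝 x, ρ y = J.sup' ⟨k, hk⟩ fun p => r p y := by
    intro x hx
    obtain ⟨k, hkt, hk⟩ := mem_iUnion₂.1 hx
    have hkJ : k ∈ t.filter fun p => x ∈ tsupport (θ p) := Finset.mem_filter.2 ⟨hkt, hVK k hk⟩
    refine ⟨k, _, hkJ, hk, Finset.filter_subset _ _,
      fun p hp => (ht p).sub (Finset.mem_filter.1 hp).2, ?_⟩
    have e1 : ∀ᶠ y in 𝓝 x, ∀ p ∈ t, y ∈ tsupport (θ p) → x ∈ tsupport (θ p) :=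
      (Finset.eventually_all t).2 fun p _ => by
        by_cases h2 : x ∈ tsupport (θ p)
        · exact Eventually.of_forall fun _ _ => h2
        · filter_upwards [(isClosed_tsupport _).isOpen_compl.mem_nhds h2] with y hy h3
          exact absurd h3 hy
    have e2 : ∀ᶠ y in 𝓝 x, ∀ p ∈ t, x ∈ tsupport (θ p) →
        ‖F (j p) y‖ ≤ Cc p k * ‖F (j k) y‖ :=
      (Finset.eventually_all t).2 fun p _ => by
        by_cases h2 : x ∈ tsupport (θ p)
        · filter_upwards [(hCc p k).filter_mono (nhds_le_nhdsSet (mem_inter h2 (hVK k hk)))] with y hy _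
          exact hy
        · exact Eventually.of_forall fun _ h3 => absurd h3 h2
    filter_upwards [e1, e2, isOpen_interior.mem_nhds hk] with y h2 h3 h4
    refine le_antisymm (csSup_le ⟨_, k, ⟨hkt, hVK k h4⟩, rfl⟩ ?_)
      (Finset.sup'_le _ _ fun p hp => ?_)
    · rintro _ ⟨p, hp, rfl⟩
      exact Finset.le_sup' (fun p => r p y) (Finset.mem_filter.2 ⟨hp.1, h2 p hp.1 hp.2⟩)
    · obtain ⟨hpt, hpx⟩ := Finset.mem_filter.1 hp
      by_cases h5 : y ∈ tsupport (θ p)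
      · exact hle p hpt y h5
      · refine le_trans ?_ (hle k hkt y (hVK k h4))
        rw [hrV k y h4]
        simp only [hr, image_eq_zero_of_notMem_tsupport h5]
        calc _ ≤ Cc p k * ‖F (j k) y‖ * Real.exp (Λ * (0 - 1)) :=
              mul_le_mul_of_nonneg_right (h3 p hpt hpx) (Real.exp_pos _).le
          _ = Cc p k * Real.exp (Λ * (0 - 1)) * ‖F (j k) y‖ := by ring
          _ ≤ _ := mul_le_of_le_one_left (norm_nonneg _) (hΛle p hpt k hkt)
  have hrc : ∀ p, ∀ x ∈ U (j p), ContinuousAt (r p) x := fun p x hx =>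
    ((h.hol _).continuousAt (h.opn _) hx).norm.mul
      (Real.continuous_exp.comp (continuous_const.mul ((ht p).cont.sub continuous_const))
        ).continuousAt
  have hnn : ∀ y, 0 ≤ ρ y := fun y => Real.sSup_nonneg (by rintro _ ⟨p, -, rfl⟩; exact hr0 p y)
  refine ⟨Λ * ∑ p ∈ t, Cq p, O, ρ, mul_nonneg hΛ0 (Finset.sum_nonneg fun p _ => hCq0 p), ?_,
    ho, htc, fun x hx => ?_, hnn, fun x hx => ?_, ?_, fun i x hx hi => ?_, fun i x hx hi => ?_⟩
  · have h2 : IsCompact (⋃ p ∈ t, tsupport (θ p)) := t.isCompact_biUnion fun p _ => (ht p).cpt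
    exact h2.of_isClosed_subset isClosed_closure
      (closure_minimal (iUnion₂_mono fun p _ => hVK p) h2.isClosed)
  · obtain ⟨k, J, hk, -, -, h2, h3⟩ := key x hx
    exact ((ContinuousAt.finset_sup'_apply ⟨k, hk⟩ fun p hp => hrc p x (h2 p hp)).congr
      (EventuallyEq.symm h3)).continuousWithinAt
  · obtain ⟨k, J, hk, hkx, -, h2, h3⟩ := key x hx
    rw [h3.self_of_nhds]
    constructor
    · intro h4
      have h5 := Finset.le_sup' (fun p => r p x) hk
      rw [h4, hrV k x hkx] at h5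
      exact (h.zero _ x (h2 k hk)).1 (norm_le_zero_iff.1 h5)
    · intro h4
      refine le_antisymm (Finset.sup'_le _ _ fun p hp => ?_)
        ((hr0 k x).trans (Finset.le_sup' (fun p => r p x) hk))
      simpa [(h.zero _ x (h2 p hp)).2 h4] using hr1 p x
  · refine QP.of_germ (ho.sdiff hΔ.isClosed) fun x hx => ?_
    obtain ⟨k, J, hk, -, hJ, h2, h3⟩ := key x hx.1
    set G : Set N := (⋂ p ∈ J, U (j p)) \ Δ with hG
    have hg : IsOpen G := (isOpen_biInter_finset fun p _ => h.opn _).sdiff hΔ.isClosed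
    have hGU : ∀ p ∈ J, G ⊆ U (j p) := fun p hp y hy => mem_iInter₂.1 hy.1 p hp
    have hG0 : ∀ p ∈ J, ∀ y ∈ G, F (j p) y ≠ 0 := fun p hp y hy h4 =>
      hy.2 ((h.zero _ y (hGU p hp hy)).1 h4)
    have hxG : x ∈ G := ⟨mem_iInter₂.2 h2, hx.2⟩
    refine ⟨G, fun y => J.sup' ⟨k, hk⟩ fun p => Real.log ‖F (j p) y‖ + Λ * θ p y - Λ, hxG,
      qp_sup' _ fun p hp => ?_, ?_⟩
    · have h4 := ((qp_log_norm hg ((h.hol _).mono (hGU p hp)) (hG0 p hp)).add
        ((hCq p Λ).mono hg (subset_univ _))).sub_const Λ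
      refine QP.sc_le (pos_semi hH) (s := |Λ| * Cq p) (h4.of_wt fun i z => ?_) ?_
      · rw [wt_ad, wt_zr, zero_add]
      · rw [abs_of_nonneg hΛ0]
        exact mul_le_mul_of_nonneg_left
          (Finset.single_le_sum (f := Cq) (fun p _ => hCq0 p) (hJ hp)) hΛ0
    · filter_upwards [h3, hg.mem_nhds hxG] with y h4 h5
      have h6 : (J.sup' ⟨k, hk⟩ fun p => r p y) =
          Real.exp (J.sup' ⟨k, hk⟩ fun p => Real.log ‖F (j p) y‖ + Λ * θ p y - Λ) := by
        refine Eq.trans (Finset.sup'_congr _ rfl fun p hp => ?_) (Finset.apply_sup'_eq_sup'_comp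
          _ Real.exp fun a b => Real.exp_monotone.map_max).symm
        simp only [Function.comp, hr]
        rw [add_sub_assoc, Real.exp_add, Real.exp_log (norm_pos_iff.2 (hG0 p hp y h5))]
        ring_nf
      rw [h4, h6, Real.log_exp]
  · obtain ⟨k, J, hk, -, -, h2, h3⟩ := key x hx
    choose! b hb1 hb using fun p (hp : p ∈ J) => h.cmp' (j p) i (h2 p hp) hi
    refine ⟨J.sup' ⟨k, hk⟩ b, (hb1 k hk).trans (Finset.le_sup' b hk), ?_⟩
    filter_upwards [h3, (Finset.eventually_all J).2 hb] with y h4 h5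
    rw [h4]
    exact Finset.sup'_le _ _ fun p hp => (hr1 p y).trans ((h5 p hp).trans
      (mul_le_mul_of_nonneg_right (Finset.le_sup' b hp) (norm_nonneg _)))
  · obtain ⟨k, J, hk, hkx, -, h2, h3⟩ := key x hx
    obtain ⟨b, hb1, hb⟩ := h.cmp' i (j k) hi (h2 k hk)
    refine ⟨b, hb1, ?_⟩
    filter_upwards [h3, hb, isOpen_interior.mem_nhds hkx] with y h4 h5 h6
    refine h5.trans (mul_le_mul_of_nonneg_left ?_ (zero_le_one.trans hb1))
    rw [h4, ← hrV k y h6]
    exact Finset.le_sup' (fun p => r p y) hk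

/-- the hard obstacles with a pole of order `c` along `Δ`, cut at depth `s ≥ 0` -/
structure Obst (H : KP B) (Δ : Set N) {ι : Type*} (U : ι → Set N) (F : ι → N → W) (c : ℝ)
    (O L : Set N) (f : ℝ → N → ℝ) : Prop where
  opn : IsOpen O
  cpt : IsCompact (closure O)
  Lc : IsCompact L
  sub : Δ ⊆ interior L
  LO : L ⊆ O
  qp : ∀ s, QP H O (f s)
  off : ∀ s s', 0 ≤ s → 0 ≤ s' → ∀ x ∈ O, x ∉ L → f s x = f s' x ∧ 0 ≤ f s x
  anti : ∀ x, Antitone fun s => f s x
  ge : ∀ s x, -(c * s) ≤ f s x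
  pole : ∀ j, ∀ x ∈ O, x ∈ U j → ∃ b : ℝ, ∀ᶠ y in 𝓝 x, ∀ s r : ℝ, ‖F j y‖ ≤ r →
    Real.exp (-s) ≤ r → f s y ≤ c * Real.log r + b
  low : ∀ j, ∀ x ∈ O, x ∈ U j → ∃ b : ℝ, ∀ᶠ y in 𝓝 x, ∀ s r : ℝ, 0 < r → r ≤ ‖F j y‖ →
    c * Real.log r - b ≤ f s y
  sharp : ∀ j, ∀ x ∈ O, x ∈ U j → ∃ b : ℝ, ∀ᶠ y in 𝓝 x, ∀ s r : ℝ, 0 < r → ‖F j y‖ ≤ r →
    f s y ≤ max (c * Real.log r + b) (-(c * s))

theorem Rho.qp_cut {C : ℝ} {O : Set N} {ρ : N → ℝ} (h : Rho (sc C H) Δ U F O ρ)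
    (hH : H.Semipos) (hC : 0 ≤ C) {κ : ℝ} (hκ : 0 < κ) (s : ℝ) :
    QP (sc C H) O fun x => Real.log (max (κ * ρ x) (Real.exp (-s))) := by
  refine QP.of_germ h.opn fun x hx => ?_
  by_cases hxΔ : x ∈ Δ
  · refine ⟨O, fun _ => -s, hx, QP.const (semi_sc hH hC) h.opn _, ?_⟩
    have h1 : κ * ρ x < Real.exp (-s) := by
      rw [(h.zero x hx).2 hxΔ, mul_zero]; exact Real.exp_pos _
    filter_upwards [(continuousAt_const.mul (h.cont.continuousAt (h.opn.mem_nhds hx))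
      ).eventually_lt continuousAt_const h1] with y hy
    rw [max_eq_right (show κ * ρ y ≤ _ from hy.le), Real.log_exp]
  · refine ⟨O \ Δ, fun y => max (Real.log (ρ y) + Real.log κ) (-s), ⟨hx, hxΔ⟩,
      (h.qp.add_const _).max (QP.const (semi_sc hH hC) h.qp.op _), ?_⟩
    filter_upwards [h.qp.op.mem_nhds ⟨hx, hxΔ⟩] with y hy
    have h1 : 0 < ρ y := (h.nn y).lt_of_ne fun h2 => hy.2 ((h.zero y hy.1).1 h2.symm)
    rw [← Real.exp_log (mul_pos hκ h1), ← Real.exp_monotone.map_max, Real.log_exp,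
      Real.log_mul hκ.ne' h1.ne', add_comm]

theorem Eqs.exists_obst (h : Eqs B Δ U F) (hH : H.Pos) (hΔ : IsCompact Δ) {O' : Set N}
    (hO' : IsOpen O') (hΔO : Δ ⊆ O') :
    ∃ (C : ℝ) (O L : Set N), 0 ≤ C ∧ closure O ⊆ O' ∧ ∀ c : ℝ, 0 ≤ c →
      ∃ f : ℝ → N → ℝ, Obst (sc (c * C) H) Δ U F c O L f := by
  have : LocallyCompactSpace N := R275.QN2b734.locallyCompact B
  obtain ⟨C, O₁, ρ, hC, -, hρ⟩ := h.exists_rho hH hΔ
  obtain ⟨L₁, c1, c2, c3⟩ := exists_compact_between hΔ (hρ.opn.inter hO')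
    (subset_inter hρ.sub hΔO)
  obtain ⟨L, d1, d2, d3⟩ := exists_compact_between hΔ isOpen_interior c2
  have hcl : closure (interior L₁) ⊆ L₁ := closure_minimal interior_subset c1.isClosed
  have hO1 : interior L₁ ⊆ O₁ := fun x hx => (c3 (interior_subset hx)).1
  obtain ⟨κ, hκ, hκ1⟩ : ∃ κ : ℝ, 0 < κ ∧ ∀ x ∈ L₁ \ interior L, 1 ≤ κ * ρ x := by
    obtain ⟨δ, hδ, h1⟩ := (c1.diff isOpen_interior).exists_forall_le'
      (hρ.cont.mono fun x hx => (c3 hx.1).1) (a := 0) fun x hx =>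
        (hρ.nn x).lt_of_ne fun h2 => hx.2 (d2 ((hρ.zero x (c3 hx.1).1).1 h2.symm))
    exact ⟨δ⁻¹, inv_pos.2 hδ, fun x hx => by
      rw [inv_mul_eq_div, one_le_div hδ]; exact h1 x hx⟩
  have hpos : ∀ s x, 0 < max (κ * ρ x) (Real.exp (-s)) := fun s x =>
    lt_max_of_lt_right (Real.exp_pos _)
  refine ⟨C, interior L₁, L, hC, fun x hx => (c3 (hcl hx)).2, fun c hc =>
    ⟨fun s x => c * Real.log (max (κ * ρ x) (Real.exp (-s))), isOpen_interior,
      c1.of_isClosed_subset isClosed_closure hcl, d1, d2, d3, fun s => ?_,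
      fun s s' hs hs' x hx hxL => ?_, fun x s s' hs => ?_, fun s x => ?_,
      fun j x hx hj => ?_, fun j x hx hj => ?_, fun j x hx hj => ?_⟩⟩
  · exact (((hρ.qp_cut (pos_semi hH) hC hκ s).mono isOpen_interior hO1).smul hc
      ).of_wt fun i z => by simp only [wt_sc]; ring
  · have h1 := hκ1 x ⟨interior_subset hx, fun h2 => hxL (interior_subset h2)⟩
    have h2 : ∀ s : ℝ, 0 ≤ s → max (κ * ρ x) (Real.exp (-s)) = κ * ρ x := fun s hs =>
      max_eq_left ((Real.exp_le_one_iff.2 (neg_nonpos.2 hs)).trans h1)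
    rw [h2 s hs, h2 s' hs']
    exact ⟨rfl, mul_nonneg hc (Real.log_nonneg h1)⟩
  · exact mul_le_mul_of_nonneg_left (Real.log_le_log (hpos _ _)
      (max_le_max le_rfl (Real.exp_le_exp.2 (neg_le_neg hs)))) hc
  · rw [← mul_neg]
    refine mul_le_mul_of_nonneg_left ?_ hc
    rw [Real.le_log_iff_exp_le (hpos _ _)]
    exact le_max_right _ _
  · obtain ⟨b, hb1, hb⟩ := hρ.up j x (hO1 hx) hj
    refine ⟨c * Real.log (max (κ * b) 1), hb.mono fun y hy s r h1 h2 => ?_⟩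
    have hr : 0 < r := (Real.exp_pos _).trans_le h2
    have hm : 0 < max (κ * b) 1 := lt_max_of_lt_right one_pos
    rw [← mul_add, ← Real.log_mul hr.ne' hm.ne']
    refine mul_le_mul_of_nonneg_left (Real.log_le_log (hpos _ _) (max_le ?_ ?_)) hc
    · calc κ * ρ y ≤ κ * (b * r) := mul_le_mul_of_nonneg_left
            (hy.trans (mul_le_mul_of_nonneg_left h1 (zero_le_one.trans hb1))) hκ.le
        _ = r * (κ * b) := by ring
        _ ≤ _ := mul_le_mul_of_nonneg_left (le_max_left _ _) hr.le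
    · exact h2.trans (le_mul_of_one_le_right hr.le (le_max_right _ _))
  · obtain ⟨b, hb1, hb⟩ := hρ.low j x (hO1 hx) hj
    refine ⟨c * Real.log (b / κ), hb.mono fun y hy s r hr h1 => ?_⟩
    have hb0 : 0 < b := one_pos.trans_le hb1
    rw [← mul_sub, ← Real.log_div hr.ne' (div_pos hb0 hκ).ne']
    refine mul_le_mul_of_nonneg_left (Real.log_le_log (by positivity)
      (le_max_of_le_left ?_)) hc
    rw [div_le_iff₀ (div_pos hb0 hκ)]
    calc r ≤ b * ρ y := h1.trans hy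
      _ = _ := by field_simp
  · obtain ⟨b, hb1, hb⟩ := hρ.up j x (hO1 hx) hj
    refine ⟨c * Real.log (κ * b), hb.mono fun y hy s r hr h1 => ?_⟩
    have hm : 0 < κ * b := mul_pos hκ (one_pos.trans_le hb1)
    rw [← mul_add, ← Real.log_mul hr.ne' hm.ne', ← mul_neg, ← mul_max_of_nonneg _ _ hc]
    refine mul_le_mul_of_nonneg_left ?_ hc
    rw [Real.log_le_iff_le_exp (hpos _ _), Real.exp_monotone.map_max, Real.exp_log (mul_pos hr hm)]
    refine max_le_max ?_ le_rfl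
    calc κ * ρ y ≤ κ * (b * r) := mul_le_mul_of_nonneg_left
          (hy.trans (mul_le_mul_of_nonneg_left h1 (zero_le_one.trans hb1))) hκ.le
      _ = r * (κ * b) := by ring

end

end Crest.Agent.X261.Obs
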