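import Crest.Agent.X261.Obs.A
import Crest.Agent.R273.UCovA_914
import Crest.Agent.R275.ProdAtl_363

/-!
# X261 / OBS (helper42), part B: the diagonal in a covering of `X × X`

`D : MonD (A.prod A) G`, `v : F` fixed by the cocycle along the diagonal (`Fix D v`).

* `dg D v : X → D.cov F` the lifted diagonal, `Ud`, `Fd` its local equations, `eqs_dg`;
* `exists_obst_dg` : hard obstacles with a pole along the lifted diagonal.
-/

set_option autoImplicit false
set_option linter.unusedSectionVars false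

open Set Filter Topology Metric

namespace Crest.Agent.X261.Obs

open Crest.Agent.R275.Geo Crest.Agent.R275.Prod363 Crest.Agent.R273.UCov_914
open Crest.Agent.R281.Kp_487 (KP)
open Crest.Agent.X261.BT

noncomputable section

variable {n : ℕ} {X : Type} [TopologicalSpace X] {A : Atl n X} {G : Type} [Group G]
  (D : MonD (A.prod A) G) {F : Type} [MulAction G F] (v : F)

/-- the cocycle fixes `v` along the diagonal -/
def Fix : Prop := ∀ i j x, x ∈ (A.e i).source → x ∈ (A.e j).source →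
  D.c (i, i) (j, j) (x, x) • v = v

/-- the lifted diagonal -/
def dg (x : X) : D.cov F := D.pt ((A.cover x).choose, (A.cover x).choose) v (x, x)

/-- the sheets along the lifted diagonal -/
def Ud (i : A.ι) : Set (D.cov F) := D.sheet (i, i) v

/-- the equations of the lifted diagonal -/
def Fd (i : A.ι) (e : D.cov F) : Cn n := A.e i (D.pr e).1 - A.e i (D.pr e).2

variable {D v}

@[simp] theorem pr_dg (x : X) : D.pr (dg D v x) = (x, x) := rfl

theorem Fix.dg_eq (h : Fix D v) {i : A.ι} {x : X} (hx : x ∈ (A.e i).source) :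
    dg D v x = D.pt (i, i) v (x, x) := by
  have h1 := (A.cover x).choose_spec
  rw [dg, D.pt_eq (j := (i, i)) v ⟨h1, h1⟩ ⟨hx, hx⟩, h _ _ x h1 hx]

theorem Fix.mem_Ud (h : Fix D v) {i : A.ι} {x : X} (hx : x ∈ (A.e i).source) :
    dg D v x ∈ Ud D v i := by
  rw [h.dg_eq hx]
  exact D.pt_mem_sheet (i := (i, i)) v ⟨hx, hx⟩

theorem Fix.continuous_dg (h : Fix D v) : Continuous (dg D v) := by
  refine continuous_iff_continuousAt.2 fun x => ?_
  obtain ⟨i, hi⟩ := A.cover x
  have h1 : ContinuousAt (fun y : X => D.pt (i, i) v (y, y)) x :=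
    ContinuousAt.comp (g := D.pt (i, i) v) (f := fun y : X => (y, y))
      ((D.continuousOn_pt (i, i) v).continuousAt
        (((A.prod A).e (i, i)).open_source.mem_nhds ⟨hi, hi⟩)) (by fun_prop)
  refine h1.congr ?_
  filter_upwards [(A.e i).open_source.mem_nhds hi] with y hy
  exact (h.dg_eq hy).symm

theorem Fix.mem_range (h : Fix D v) {i : A.ι} {e : D.cov F} (he : e ∈ Ud D v i) :
    e ∈ range (dg D v) ↔ (D.pr e).1 = (D.pr e).2 := by
  constructor
  · rintro ⟨x, rfl⟩
    rfl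
  · intro h1
    refine ⟨(D.pr e).1, ?_⟩
    rw [h.dg_eq he.1.1, show ((D.pr e).1, (D.pr e).1) = D.pr e from Prod.ext rfl h1]
    exact D.pt_of_mem he

theorem holW_Fd (i : A.ι) : HolW (D.atl F) (Ud D v i) (Fd D i) := by
  rintro ⟨⟨j, k⟩, w⟩
  have h1 := (A.holo j i).comp (s := chU (D.atl F) (Ud D v i) ((j, k), w))
    (fstL n n).differentiable.differentiableOn fun z hz => ⟨hz.1.1, hz.2.1.1⟩
  have h2 := (A.holo k i).comp (s := chU (D.atl F) (Ud D v i) ((j, k), w))
    (sndL n n).differentiable.differentiableOn fun z hz => ⟨hz.1.2, hz.2.1.2⟩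
  exact h1.sub h2

/-- chart changes are locally Lipschitz -/
theorem exists_lip (A : Atl n X) {i j : A.ι} {x : X} (hi : x ∈ (A.e i).source)
    (hj : x ∈ (A.e j).source) : ∃ C : ℝ, ∀ᶠ p : X × X in 𝓝 (x, x),
      ‖A.e i p.1 - A.e i p.2‖ ≤ C * ‖A.e j p.1 - A.e j p.2‖ := by
  obtain ⟨K, t, ht, hK⟩ := ((R281.Kp_487.Tm_hol (A := A) ⟨hj, hi⟩).of_le
    (m := 1) (by exact_mod_cast le_top)).exists_lipschitzOnWith
  have h1 : ∀ᶠ y in 𝓝 x, y ∈ (A.e j).source ∧ A.e j y ∈ t :=
    ((A.e j).open_source.eventually_mem hj).and (((A.e j).continuousAt hj).eventually ht)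
  refine ⟨K, ?_⟩
  filter_upwards [(continuous_fst.tendsto (x, x)).eventually h1,
    (continuous_snd.tendsto (x, x)).eventually h1] with p h2 h3
  have h4 := hK.norm_sub_le h2.2 h3.2
  rwa [(A.e j).left_inv h2.1, (A.e j).left_inv h3.1] at h4

theorem Fix.eqs (h : Fix D v) : Eqs (D.atl F) (range (dg D v)) (Ud D v) (Fd D) where
  opn i := D.isOpen_sheet _ _
  cov := by
    rintro _ ⟨x, rfl⟩
    obtain ⟨i, hi⟩ := A.cover x
    exact ⟨i, h.mem_Ud hi⟩
  hol := holW_Fd
  zero i e he := by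
    rw [h.mem_range he, Fd, sub_eq_zero]
    exact ⟨(A.e i).injOn he.1.1 he.1.2, fun h1 => by rw [h1]⟩
  cmp := by
    rintro i j _ ⟨x, rfl⟩ hi hj
    obtain ⟨C, hC⟩ := exists_lip A (x := x) hi.1.1 hj.1.1
    exact ⟨C, (D.continuous_pr.tendsto (dg D v x)).eventually hC⟩

/-- **OBS**: hard obstacles along the lifted diagonal -/
theorem Fix.exists_obst [CompactSpace X] [T2Space X] (h : Fix D v) {H : KP (D.atl F)}
    (hH : H.Pos) : ∃ (C : ℝ) (O L : Set (D.cov F)), 0 ≤ C ∧ ∀ c : ℝ, 0 ≤ c →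
      ∃ f : ℝ → D.cov F → ℝ, Obst (sc (c * C) H) (range (dg D v)) (Ud D v) (Fd D) c O L f := by
  have : T2Space (D.cov F) := MonD.instT2SpaceCov D
  obtain ⟨C, O, L, h1, -, h2⟩ := h.eqs.exists_obst hH (isCompact_range h.continuous_dg)
    isOpen_univ (subset_univ _)
  exact ⟨C, O, L, h1, h2⟩

end

end Crest.Agent.X261.Obs
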