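import Crest.Agent.X261.Obs.A
import Crest.Agent.X261.Shaf.Defs

/-!
# X261 / OBS (helper42), part D: `Shaf.ObsStmt`

* `exists_eqs` : a set all of whose points are regular has local equations;
* `Obst.exists_oseq` : globalisation of the hard obstacles with a smooth cut-off;
* `obsStmt : Shaf.ObsStmt`.
-/

set_option autoImplicit false
set_option linter.unusedSectionVars false

open Set Filter Topology Metric

namespace Crest.Agent.X261.Obs

open Crest.Agent.R275.Geo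
open Crest.Agent.R281.Kp_487 (KP)
open Crest.Agent.X261.BT Crest.Agent.X261.Ans

noncomputable section

variable {m : ℕ} {N : Type} [TopologicalSpace N] {B : Atl m N} {H : KP B}

/-- a local holomorphic retraction -/
theorem exists_retr {Z : Set (Cn m)} {d : ℕ} {x : Cn m} (h : Ans.Reg Z d x) :
    ∃ (V : Set (Cn m)) (P : Cn m → Cn m), IsOpen V ∧ x ∈ V ∧
      ∀ z ∈ V, AnalyticAt ℂ P z ∧ P z ∈ Z ∧ (z ∈ Z → P z = z) := by
  obtain ⟨-, φ, ρ, h1, h2, h3, h4⟩ := h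
  obtain ⟨V, c1, c2, c3⟩ := _root_.eventually_nhds_iff.1 ((h1.comp h2).eventually_analyticAt.and
    ((h2.continuousAt.eventually h3).and h4))
  exact ⟨V, φ ∘ ρ, c2, c3, fun z hz => ⟨(c1 z hz).1, (c1 z hz).2.1.1, (c1 z hz).2.2⟩⟩

theorem lip_of_an {g : Cn m → Cn m} {z : Cn m} (h : AnalyticAt ℂ g z) :
    ∃ K : ℝ, 0 < K ∧ ∃ t ∈ 𝓝 z, ∀ a ∈ t, ∀ b ∈ t, ‖g a - g b‖ ≤ K * ‖a - b‖ := by
  obtain ⟨K, t, ht, hK⟩ := ((h.contDiffAt (n := 1)).restrict_scalars ℝ).exists_lipschitzOnWith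
  refine ⟨K + 1, by positivity, t, ht, fun a ha b hb => (hK.norm_sub_le ha hb).trans ?_⟩
  exact mul_le_mul_of_nonneg_right (by linarith) (norm_nonneg _)

theorem exists_eqs {Δ : Set N} (h : ∀ p ∈ Δ, ∃ d, (HA.of B).Reg Δ d p) :
    ∃ (U : Δ → Set N) (F : Δ → N → Cn m), Eqs B Δ U F ∧ ∀ j k, ∀ x ∈ U j, x ∈ (B.e k).source →
      AnalyticAt ℂ (fun z => F j ((B.e k).symm z)) (B.e k x) := by
  have h1 : ∀ p : Δ, ∃ (i : B.ι) (V : Set (Cn m)) (P : Cn m → Cn m), p.1 ∈ (B.e i).source ∧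
      IsOpen V ∧ B.e i p.1 ∈ V ∧ ∀ z ∈ V, AnalyticAt ℂ P z ∧ (B.e i).symm (P z) ∈ Δ ∧
        ((B.e i).symm z ∈ Δ → P z = z) := fun p => by
    obtain ⟨d, i, hi, h2⟩ := h p.1 p.2
    obtain ⟨V, P, h3⟩ := exists_retr h2
    exact ⟨i, V, P, hi, h3⟩
  choose i V P h1 h2 h3 h4 using h1
  have han : ∀ j k, ∀ x ∈ (B.e (i j)).source ∩ B.e (i j) ⁻¹' V j, x ∈ (B.e k).source →
      AnalyticAt ℂ (fun z => B.e (i j) ((B.e k).symm z) - P j (B.e (i j) ((B.e k).symm z)))
        (B.e k x) := fun j k x hx hk => by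
    have a1 := HA.tr_an (A := HA.of B) hk hx.1
    exact a1.sub ((h4 j _ hx.2).1.comp_of_eq a1 (congrArg (B.e (i j)) ((B.e k).left_inv hk)))
  have hz : ∀ j, ∀ x ∈ (B.e (i j)).source ∩ B.e (i j) ⁻¹' V j,
      B.e (i j) x - P j (B.e (i j) x) = 0 ↔ x ∈ Δ := fun j x hx => by
    obtain ⟨-, a1, a2⟩ := h4 j _ hx.2
    rw [(B.e (i j)).left_inv hx.1] at a2
    refine ⟨fun a3 => ?_, fun a3 => by rw [a2 a3, sub_self]⟩
    rwa [← sub_eq_zero.1 a3, (B.e (i j)).left_inv hx.1] at a1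
  have hop : ∀ j, IsOpen ((B.e (i j)).source ∩ B.e (i j) ⁻¹' V j) := fun j =>
    (B.e (i j)).isOpen_inter_preimage (h2 j)
  refine ⟨fun j => (B.e (i j)).source ∩ B.e (i j) ⁻¹' V j,
    fun j x => B.e (i j) x - P j (B.e (i j) x), ⟨hop, fun x hx => ⟨⟨x, hx⟩, h1 _, h3 _⟩,
      fun j k z hz => ?_, hz, fun j k x hx hj hk => ?_⟩, han⟩
  · have a1 := han j k _ hz.2 ((B.e k).map_target hz.1)
    rw [(B.e k).right_inv hz.1] at a1
    exact a1.differentiableAt.differentiableWithinAt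
  · obtain ⟨K, -, t, ht, hK⟩ := lip_of_an (han j (i k) x hj hk.1)
    have a1 : Tendsto (fun y => P k (B.e (i k) y)) (𝓝 x) (𝓝 (B.e (i k) x)) := by
      have a2 := ((h4 k _ hk.2).1.continuousAt.comp ((B.e (i k)).continuousAt hk.1)).tendsto
      rwa [Function.comp_apply, (h4 k _ hk.2).2.2 (by rwa [(B.e (i k)).left_inv hk.1])] at a2
    refine ⟨K, ?_⟩
    filter_upwards [(hop k).mem_nhds hk, ((B.e (i k)).continuousAt hk.1).eventually ht,
      a1.eventually ht, ((HA.tendsto_symm (A := HA.of B) hk.1).comp a1).eventually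
        ((hop j).mem_nhds hj)] with y b1 b2 b3 b4
    have b5 := hK _ b2 _ b3
    rwa [(hz j ((B.e (i k)).symm (P k (B.e (i k) y))) b4).2 (h4 k _ b1.2).2.1, sub_zero,
      (B.e (i k)).left_inv b1.1] at b5

variable [T2Space N] {W : Type*} [NormedAddCommGroup W] [NormedSpace ℂ W]

open Classical in
/-- globalisation of hard obstacles -/
theorem Obst.exists_oseq (hH : H.Pos) {Δ : Set N} {ι : Type*} {U : ι → Set N} {F : ι → N → W}
    {c C : ℝ} {O L : Set N} {f : ℝ → N → ℝ} (h : Obst (sc C H) Δ U F c O L f) :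
    ∃ (C' M : ℝ) (K : Set N) (w : ℕ → N → ℝ), Shaf.OSeq H C' K w ∧ K ⊆ O ∧
      ∀ (s : ℕ), ∀ x ∈ L, w s x = f s x - M := by
  obtain ⟨θ, h1, h2, h3, h4⟩ := exists_cutM B h.Lc h.opn h.LO
  obtain ⟨C₁, -, h5⟩ := exists_qp_cut hH h1 h2.cpt
  have hK : IsCompact (tsupport θ) := h2.cpt
  obtain ⟨M, hM0, hM⟩ : ∃ M : ℝ, 0 ≤ M ∧ ∀ s : ℕ, ∀ x ∈ tsupport θ, f s x < M := by
    obtain ⟨M, hM⟩ := hK.bddAbove_image ((h.qp 0).cont.mono h2.sub)
    refine ⟨max (M + 1) 0, le_max_right _ _, fun s x hx => lt_max_of_lt_left ?_⟩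
    linarith [h.anti x (Nat.cast_nonneg s : (0 : ℝ) ≤ s), hM ⟨x, hx, rfl⟩]
  have hLK : L ⊆ tsupport θ := fun x hx => subset_tsupport θ (by
    rw [Function.mem_support, h3.self_of_nhdsSet x hx]; exact one_ne_zero)
  have hs := pos_semi hH
  have q1 : ∀ s, QP (sc (max (max C (|-M| * C₁)) 1) H) O fun x => f s x - M := fun s =>
    (QP.sc_le hs (h.qp s) (le_max_of_le_left (le_max_left _ _))).sub_const M
  have q2 := (QP.sc_le hs (h5 (-M)) (t := max (max C (|-M| * C₁)) 1)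
    (le_max_of_le_left (le_max_right _ _))).mono h.opn (subset_univ _)
  refine ⟨max (max C (|-M| * C₁)) 1, M, tsupport θ, fun s x => if x ∈ L then f s x - M else
    if x ∈ tsupport θ then max (f s x - M) (-M * θ x) else 0, ⟨le_max_right _ _, hK,
    fun s => QP.of_germ isOpen_univ fun x _ => ?_, fun s x => ?_, fun s x hx => ?_,
    fun x s s' hs => ?_⟩, h2.sub, fun s x hx => if_pos hx⟩
  · by_cases hx : x ∈ L
    · refine ⟨O, _, h.LO hx, q1 s, ?_⟩
      filter_upwards [h3.filter_mono (nhds_le_nhdsSet hx), h.opn.mem_nhds (h.LO hx)] with y a1 a2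
      by_cases hy : y ∈ L
      · exact if_pos hy
      · rw [if_neg hy, if_pos (subset_tsupport θ (by rw [Function.mem_support, a1]; norm_num)), a1]
        exact max_eq_left (by linarith [(h.off s s s.cast_nonneg s.cast_nonneg y a2 hy).2])
    · by_cases hx' : x ∈ tsupport θ
      · refine ⟨O, _, h2.sub hx', (q1 s).max q2, ?_⟩
        filter_upwards [h.Lc.isClosed.isOpen_compl.mem_nhds hx, ((h.qp s).cont.continuousAt
          (h.opn.mem_nhds (h2.sub hx'))).eventually_lt continuousAt_const (hM s x hx')] with y a1 a2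
        rw [if_neg a1]
        by_cases hy : y ∈ tsupport θ
        · exact if_pos hy
        · rw [if_neg hy, image_eq_zero_of_notMem_tsupport hy, mul_zero]
          exact (max_eq_right (by linarith)).symm
      · refine ⟨univ, fun _ => 0, mem_univ _, QP.const (semi_sc hs (le_max_of_le_right zero_le_one))
          isOpen_univ 0, ?_⟩
        filter_upwards [hK.isClosed.isOpen_compl.mem_nhds hx'] with y hy
        rw [if_neg fun a => hy (hLK a), if_neg hy]
  · split_ifs with a1 a2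
    · linarith [hM s x (hLK a1)]
    · exact max_le (by linarith [hM s x a2]) (by nlinarith [(h4 x).1])
    · exact le_rfl
  · rw [if_neg fun a => hx (hLK a), if_neg hx]
  · have a0 := h.anti x (Nat.cast_le.2 hs : (s : ℝ) ≤ s')
    simp only at a0 ⊢
    split_ifs
    · linarith
    · exact max_le_max (by linarith) le_rfl
    · exact le_rfl

theorem obsStmt : Shaf.ObsStmt := by
  intro n N _ _ B _ H hH Δ hΔ hreg c
  obtain ⟨U, F, hE, han⟩ := exists_eqs hreg
  obtain ⟨C, O, L, -, -, h⟩ := hE.exists_obst hH hΔ isOpen_univ (subset_univ _)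
  obtain ⟨f, h⟩ := h (max c 0) (le_max_right _ _)
  obtain ⟨C', M, K, w, h1, -, h2⟩ := h.exists_oseq hH
  refine ⟨C', K, w, h1, fun u hu p hp => Shaf.Pol.mono (c := max c 0) ?_ (le_max_left _ _)⟩
  obtain ⟨j, hj⟩ := hE.cov p hp
  obtain ⟨i, hi⟩ := B.cover p
  obtain ⟨b, hb⟩ := h.pole j p (h.LO (interior_subset (h.sub hp))) hj
  obtain ⟨κ, hκ, t, ht, hK⟩ := lip_of_an (han j i p hj hi)
  obtain ⟨ε, hε, h3⟩ := nhds_basis_closedBall.eventually_iff.1 (((HA.ev_chart (A := HA.of B) hi).1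
    (hb.and (mem_interior_iff_mem_nhds.1 (h.sub hp)))).and ht)
  refine ⟨i, hi, max c 0 * Real.log κ + b - M, ?_⟩
  filter_upwards [Ioo_mem_nhdsGT hε] with r hr z hz
  obtain ⟨⟨a1, a2⟩, a3⟩ := h3 (closedBall_subset_closedBall hr.2.le hz)
  obtain ⟨s, hs⟩ := exists_nat_ge (-Real.log (κ * r))
  have a4 := hK _ a3 _ (mem_of_mem_nhds ht)
  rw [(B.e i).left_inv hi, (hE.zero j p hj).2 hp, sub_zero] at a4
  have a5 := a1 s (κ * r) (a4.trans (mul_le_mul_of_nonneg_left (mem_closedBall_iff_norm.1 hz) hκ.le))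
    (by rw [← Real.le_log_iff_exp_le (mul_pos hκ hr.1)]; linarith)
  rw [Real.log_mul hκ.ne' hr.1.ne'] at a5
  refine (hu s _).trans (EReal.coe_le_coe_iff.2 ?_)
  rw [h2 s _ a2]
  linarith

end

end Crest.Agent.X261.Obs
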